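import Vale.Agent.P253.Mfd.Defs

/-!
P253: linearization of a one-parameter group of holomorphic isometries at a fixed point.
-/

open scoped Manifold ContDiff Topology Bundle
open Bundle Complex

noncomputable section

namespace Vale.Agent.P253.Mfd

variable {E : Type*} [NormedAddCommGroup E] [NormedSpace ℂ E]
  {M : Type*} [MetricSpace M] [ChartedSpace E M]

/-- squared length of the tangent vector `v` at `x` (the tangent space at `x` is `E` as a vector
space, through the preferred chart at `x`) -/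
def sqLen [RiemannianBundle (fun x : M => TangentSpace 𝓘(ℝ, E) x)] (x : M) (v : E) : ℝ :=
  inner ℝ (show TangentSpace 𝓘(ℝ, E) x from v) (show TangentSpace 𝓘(ℝ, E) x from v)

/-- `p` is a fixed point of `ρ`, and `d(ρ t)_p = diag (exp (i m_1 t), ..., exp (i m_n t))` in the
complex basis `b` of `T_p M`, with real numbers `m_j > 0`. -/
def HasWeights (ρ : ℝ → M → M) (p : M) (b : Module.Basis (Fin (Module.finrank ℂ E)) ℂ E)
    (m : Fin (Module.finrank ℂ E) → ℝ) : Prop :=
  (∀ t, ρ t p = p) ∧ (∀ j, 0 < m j) ∧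
    ∀ t j, mfderiv 𝓘(ℂ, E) 𝓘(ℂ, E) (ρ t) p (b j) = exp (t * m j * I) • b j

variable (E) in
/-- `p` is a fixed point of `ρ`, and `d(ρ t)_p` is the multiplication by `exp (i μ t)`, with a real
number `μ > 0` -/
def IsScalarFixedPoint (ρ : ℝ → M → M) (p : M) (μ : ℝ) : Prop :=
  (∀ t, ρ t p = p) ∧ 0 < μ ∧
    ∀ (t : ℝ) (v : E), (mfderiv 𝓘(ℂ, E) 𝓘(ℂ, E) (ρ t) p : E → E) v = exp (t * μ * I) • v

/-- the biholomorphism `F : M → E = T_p M` maps `p` to `0`, has differential the identity at `p`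
and conjugates `ρ t` to its differential at `p` -/
structure IsLinearization (ρ : ℝ → M → M) (p : M) (F : M ≃ₘ^1⟮𝓘(ℂ, E), 𝓘(ℂ, E)⟯ E) :
    Prop where
  base : F p = 0
  deriv : ∀ v : E, (mfderiv 𝓘(ℂ, E) 𝓘(ℂ, E) F p : E → E) v = v
  equivariant : ∀ (t : ℝ) (x : M),
    F (ρ t x) = (mfderiv 𝓘(ℂ, E) 𝓘(ℂ, E) (ρ t) p : E → E) (F x)

end Vale.Agent.P253.Mfd
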