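import Vale.Agent.P253.U165.Main

/-!
P253: final theorems.
-/

open scoped Manifold ContDiff Topology Bundle ENNReal
open Set Metric Complex Filter Bundle IsManifold MeasureTheory Manifold Vale.Agent.P253.Mfd

set_option maxSynthPendingDepth 3
set_option linter.unusedSectionVars false

noncomputable section

namespace Vale.Agent.P253.U165

variable {E : Type*} [NormedAddCommGroup E] [NormedSpace ℂ E] [FiniteDimensional ℂ E]
  {M : Type*} [MetricSpace M] [ChartedSpace E M]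
  [IsManifold 𝓘(ℂ, E) 1 M] [IsManifold 𝓘(ℝ, E) ∞ M]
  [RiemannianBundle (fun x : M => TangentSpace 𝓘(ℝ, E) x)]
  [IsContMDiffRiemannianBundle 𝓘(ℝ, E) ∞ E (fun x : M => TangentSpace 𝓘(ℝ, E) x)]
  [IsRiemannianManifold 𝓘(ℝ, E) M]
  {ι : Type*} [Fintype ι] {ρ : ℝ → M → M} {p : M}

theorem exists_Chart (hK : IsKahler E M) [CompleteSpace M] [NoncompactSpace M] [ConnectedSpace M]
    (hnn : ∀ x : M, NonnegBisectionalAt E x) (hρ : IsHolIsomFlow E ρ)
    (hpos : PosBisectionalAt E p) (hfix : ∀ t, ρ t p = p) (φ : E ≃L[ℂ] (ι → ℂ)) {m : ι → ℝ}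
    (hm : ∀ j, 0 < m j) (hw : ∀ (t : ℝ) (v : E),
      (mfderiv 𝓘(ℂ, E) 𝓘(ℂ, E) (ρ t) p : E → E) v = LE φ m (t * I) v) :
    ∃ e D, Chart ρ p φ m e D ∧ ∃ C > 0, ∀ x : M, ‖φ (e x)‖ ≤ C * Real.exp (C * dist p x) := by
  obtain ⟨e, he, htgt, hsrc, hep, heq, hgr⟩ := exists_chart hK hnn hρ hpos hfix φ hm hw
  refine ⟨e, (chartDiffeo e he hsrc htgt).mfderivToContinuousLinearEquiv (by simp) p,
    ⟨he, htgt, hsrc, hep, heq, hfix, hw, fun v => rfl⟩, hgr⟩

theorem weights_LE {b : Module.Basis (Fin (Module.finrank ℂ E)) ℂ E}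
    {m : Fin (Module.finrank ℂ E) → ℝ}
    (hw : ∀ t j, mfderiv 𝓘(ℂ, E) 𝓘(ℂ, E) (ρ t) p (b j) = exp (t * m j * I) • b j) (t : ℝ) (v : E) :
    (mfderiv 𝓘(ℂ, E) 𝓘(ℂ, E) (ρ t) p : E → E) v =
      LE (b.equivFun.toContinuousLinearEquiv) m (t * I) v := by
  set φ : E ≃L[ℂ] (Fin (Module.finrank ℂ E) → ℂ) := b.equivFun.toContinuousLinearEquiv with hφ
  let T₀ : E →L[ℂ] E := mfderiv 𝓘(ℂ, E) 𝓘(ℂ, E) (ρ t) p
  let T : E →ₗ[ℂ] E := T₀.toLinearMap
  let L : E →ₗ[ℂ] E :=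
    { toFun := LE φ m (t * I)
      map_add' := fun v w => LE_add_right _ v w
      map_smul' := fun c v => LE_smul _ c v }
  have hTL : T = L := by
    apply b.ext
    intro j
    apply ext_coord (φ := φ)
    intro k
    have h1 : T (b j) = exp (t * m j * I) • b j := hw t j
    have h2 : φ (L (b j)) k = Complex.exp (t * I * m k) * φ (b j) k := LE_coord _ _ _
    rw [h1, h2, map_smul, Pi.smul_apply, smul_eq_mul]
    have h3 : φ (b j) k = if j = k then 1 else 0 := by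
      simp [hφ]
    rw [h3]
    by_cases hjk : j = k
    · subst hjk
      rw [if_pos rfl]
      congr 2
      ring
    · rw [if_neg hjk]; simp
  exact congrArg (fun S : E →ₗ[ℂ] E => S v) hTL

/-- growth in terms of the normalised coordinates -/
theorem Chart.growth {φ : E ≃L[ℂ] (ι → ℂ)} {m : ι → ℝ} {e : OpenPartialHomeomorph M E}
    {D : E ≃L[ℂ] E} (h : Chart ρ p φ m e D) (hK : IsKahler E M)
    (hnn : ∀ x : M, NonnegBisectionalAt E x) (hρ : IsHolIsomFlow E ρ) (hm : ∀ j, 0 < m j)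
    (hg : ∃ C > 0, ∀ x : M, ‖φ (e x)‖ ≤ C * Real.exp (C * dist p x)) :
    (∃ C > 0, ∀ x : M, ‖h.F x‖ ≤ C * Real.exp (C * dist p x)) ∧
    ∀ κ : ℝ, (∀ j k, m j ≤ κ * m k) → ∃ C > 0, ∀ x : M, dist p x ≤ C * (1 + ‖h.F x‖) ^ κ := by
  refine ⟨?_, fun κ hκ => ?_⟩
  · obtain ⟨C, hC, hg⟩ := hg
    set A : ℝ := ‖(D.symm : E →L[ℂ] E)‖ * ‖(φ.symm : (ι → ℂ) →L[ℂ] E)‖ with hA
    have hA0 : 0 ≤ A := by positivity
    refine ⟨C * (A + 1), by positivity, fun x => ?_⟩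
    have h1 : ‖h.F x‖ ≤ A * ‖φ (e x)‖ := by
      have h2 : h.F x = D.symm (φ.symm (φ (e x))) := by
        rw [ContinuousLinearEquiv.symm_apply_apply]; rfl
      rw [h2]
      calc ‖D.symm (φ.symm (φ (e x)))‖ ≤ ‖(D.symm : E →L[ℂ] E)‖ * ‖φ.symm (φ (e x))‖ :=
            (D.symm : E →L[ℂ] E).le_opNorm _
        _ ≤ ‖(D.symm : E →L[ℂ] E)‖ * (‖(φ.symm : (ι → ℂ) →L[ℂ] E)‖ * ‖φ (e x)‖) := by
            gcongr
            exact (φ.symm : (ι → ℂ) →L[ℂ] E).le_opNorm _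
        _ = _ := by rw [hA]; ring
    have hd : 0 ≤ dist p x := dist_nonneg
    calc ‖h.F x‖ ≤ A * ‖φ (e x)‖ := h1
      _ ≤ A * (C * Real.exp (C * dist p x)) := by gcongr; exact hg x
      _ ≤ (A + 1) * (C * Real.exp (C * (A + 1) * dist p x)) := by
          gcongr
          · linarith only []
          · nlinarith only [mul_nonneg hC.le hA0, hC]
      _ = _ := by ring
  · obtain ⟨C, hC, hl⟩ := lower_growth hK hnn hρ h.mem h.tgt h.src hm h.equiv hκ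
    rcases isEmpty_or_nonempty ι with hι | ⟨⟨k₀⟩⟩
    · refine ⟨C, hC, fun x => (hl x).trans (le_of_eq ?_)⟩
      have h1 : e x = 0 := ext_coord (φ := φ) fun j => (hι.false j).elim
      rw [h.F_apply, h1]
      simp
    have hκ1 : 0 ≤ κ := by
      have h1 := hκ k₀ k₀
      have h2 := hm k₀
      by_contra hcon
      push Not at hcon
      nlinarith only [h1, hcon, h2]
    set A : ℝ := ‖(φ : E →L[ℂ] (ι → ℂ))‖ * ‖(D : E →L[ℂ] E)‖ with hA
    have hA0 : 0 ≤ A := by positivity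
    refine ⟨C * (1 + A) ^ κ, by positivity, fun x => (hl x).trans ?_⟩
    have h1 : ‖φ (e x)‖ ≤ A * ‖h.F x‖ := by
      have h2 : e x = D (h.F x) := by
        rw [h.F_apply, ContinuousLinearEquiv.apply_symm_apply]
      rw [h2]
      calc ‖φ (D (h.F x))‖ ≤ ‖(φ : E →L[ℂ] (ι → ℂ))‖ * ‖D (h.F x)‖ :=
            (φ : E →L[ℂ] (ι → ℂ)).le_opNorm _
        _ ≤ ‖(φ : E →L[ℂ] (ι → ℂ))‖ * (‖(D : E →L[ℂ] E)‖ * ‖h.F x‖) := by
            gcongr
            exact (D : E →L[ℂ] E).le_opNorm _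
        _ = _ := by rw [hA]; ring
    rw [mul_assoc, ← Real.mul_rpow (by positivity) (by positivity)]
    gcongr
    nlinarith only [h1, hA0, norm_nonneg (h.F x)]

/-- equivariant uniformization with growth -/
theorem main_weights (hK : IsKahler E M) [CompleteSpace M] [NoncompactSpace M] [ConnectedSpace M]
    (hnn : ∀ x : M, NonnegBisectionalAt E x) (hρ : IsHolIsomFlow E ρ)
    (hpos : PosBisectionalAt E p) {b : Module.Basis (Fin (Module.finrank ℂ E)) ℂ E}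
    {m : Fin (Module.finrank ℂ E) → ℝ} (hw : HasWeights ρ p b m) :
    ∃ F : M ≃ₘ^1⟮𝓘(ℂ, E), 𝓘(ℂ, E)⟯ E, IsLinearization ρ p F ∧
      (∃ C > 0, ∀ x : M, ‖F x‖ ≤ C * Real.exp (C * dist p x)) ∧
      ∀ κ : ℝ, (∀ j k, m j ≤ κ * m k) → ∃ C > 0, ∀ x : M, dist p x ≤ C * (1 + ‖F x‖) ^ κ := by
  obtain ⟨hfix, hm, hw⟩ := hw
  obtain ⟨e, D, h, hg⟩ := exists_Chart hK hnn hρ hpos hfix b.equivFun.toContinuousLinearEquiv hm
    (weights_LE hw)
  exact ⟨h.F, h.isLinearization hρ, h.growth hK hnn hρ hm hg⟩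

/-- holomorphic maps to the model space which are equivariant for the rotations are linear in the
coordinate `F` -/
theorem linear_in_F {F : M ≃ₘ^1⟮𝓘(ℂ, E), 𝓘(ℂ, E)⟯ E} (hF : IsLinearization ρ p F) {μ : ℝ}
    (hs : IsScalarFixedPoint E ρ p μ) {h : M → E} (hh : MDifferentiable 𝓘(ℂ, E) 𝓘(ℂ, E) h)
    (heq : ∀ t x, h (ρ t x) = exp (t * μ * I) • h x) (x : M) :
    h x = (mfderiv 𝓘(ℂ, E) 𝓘(ℂ, E) h p : E → E) (F x) := by
  have hCE : CompleteSpace E := FiniteDimensional.complete ℂ E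
  set k : E → E := h ∘ F.symm with hk
  have hkd : Differentiable ℂ k := by
    have h1 : MDifferentiable 𝓘(ℂ, E) 𝓘(ℂ, E) F.symm :=
      F.symm.contMDiff.mdifferentiable (by simp)
    have h2 : MDifferentiable 𝓘(ℂ, E) 𝓘(ℂ, E) k := hh.comp h1
    exact mdifferentiable_iff_differentiable.1 h2
  have hrot : ∀ (t : ℝ) (z : E), k (exp (t * μ * I) • z) = exp (t * μ * I) • k z := by
    intro t z
    have h1 : F.symm (exp (t * μ * I) • z) = ρ t (F.symm z) := by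
      have h2 := hF.equivariant t (F.symm z)
      rw [hs.2.2, F.apply_symm_apply] at h2
      rw [← h2, F.symm_apply_apply]
    simp only [hk, Function.comp_apply]
    rw [h1, heq]
  have hkF : h = k ∘ F := by
    funext y
    simp only [hk, Function.comp_apply, F.symm_apply_apply]
  have hlin := linear_of_rot hkd hs.2.1.ne' hrot (F x)
  have h1 : h x = k (F x) := congrFun hkF x
  rw [h1, hlin]
  let DF : E →L[ℂ] E := mfderiv 𝓘(ℂ, E) 𝓘(ℂ, E) F p
  have h2 : HasMFDerivAt 𝓘(ℂ, E) 𝓘(ℂ, E) F p DF :=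
    ((F.contMDiff.mdifferentiable (by simp)) p).hasMFDerivAt
  have h3 : HasMFDerivAt 𝓘(ℂ, E) 𝓘(ℂ, E) k (F p) (fderiv ℂ k (F p)) :=
    (hkd (F p)).hasFDerivAt.hasMFDerivAt
  have h4 : HasMFDerivAt 𝓘(ℂ, E) 𝓘(ℂ, E) h p ((fderiv ℂ k (F p)).comp DF) := by
    have := h3.comp p h2
    rw [← hkF] at this
    exact this
  have h5 : (mfderiv 𝓘(ℂ, E) 𝓘(ℂ, E) h p : E → E) (F x) = fderiv ℂ k (F p) (DF (F x)) := by
    rw [h4.mfderiv]
    rfl
  have h6 : DF (F x) = F x := hF.deriv (F x)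
  rw [h5, h6, hF.base]

/-- the scalar case -/
theorem main_scalar (hK : IsKahler E M) [CompleteSpace M] [NoncompactSpace M] [ConnectedSpace M]
    (hnn : ∀ x : M, NonnegBisectionalAt E x) (hρ : IsHolIsomFlow E ρ)
    (hpos : PosBisectionalAt E p) {μ : ℝ} (hs : IsScalarFixedPoint E ρ p μ) :
    ∃ F : M ≃ₘ^1⟮𝓘(ℂ, E), 𝓘(ℂ, E)⟯ E, IsLinearization ρ p F ∧
      (∀ F' : M ≃ₘ^1⟮𝓘(ℂ, E), 𝓘(ℂ, E)⟯ E, IsLinearization ρ p F' → F' = F) ∧
      (∃ C > 0, ∀ x : M, ‖F x‖ ≤ C * Real.exp (C * dist p x)) ∧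
      (∀ (x : M) (v : E), sqLen (E := E) x v ≤
        sqLen (E := E) p ((mfderiv 𝓘(ℂ, E) 𝓘(ℂ, E) F x : E → E) v)) ∧
      (∀ x y : M, dist x y ≤ √(sqLen (E := E) p (F x - F y))) ∧
      ∀ g : M → M, MDifferentiable 𝓘(ℂ, E) 𝓘(ℂ, E) g → (∀ t x, g (ρ t x) = ρ t (g x)) →
        g p = p ∧ ∀ x, F (g x) = (mfderiv 𝓘(ℂ, E) 𝓘(ℂ, E) g p : E → E) (F x) := by
  obtain ⟨hfix, hμ, hw⟩ := hs
  set b := Module.finBasis ℂ E with hb
  have hw' : ∀ t j, mfderiv 𝓘(ℂ, E) 𝓘(ℂ, E) (ρ t) p (b j) =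
      exp (t * ((fun _ => μ : Fin (Module.finrank ℂ E) → ℝ) j : ℝ) * I) • b j := fun t j =>
    hw t (b j)
  have hm : ∀ j : Fin (Module.finrank ℂ E), 0 < (fun _ => μ : Fin (Module.finrank ℂ E) → ℝ) j :=
    fun _ => hμ
  obtain ⟨e, D, h, hg⟩ := exists_Chart hK hnn hρ hpos hfix b.equivFun.toContinuousLinearEquiv hm
    (weights_LE hw')
  set φ : E ≃L[ℂ] (Fin (Module.finrank ℂ E) → ℂ) := b.equivFun.toContinuousLinearEquiv with hφ
  have hF := h.isLinearization hρ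
  have hgr := h.growth hK hnn hρ hm hg
  -- the metric comparison
  have hLK : LocalKahler (chartG e) univ := h.tgt ▸ localKahler_chartG hK h.mem
  have hequiv : ∀ θ : ℝ, ∀ x ∈ e.source,
      ρ θ x ∈ e.source ∧ e (ρ θ x) = LE φ (fun _ => μ) (θ * I) (e x) := by
    intro θ x hx
    refine ⟨h.src ▸ mem_univ _, ?_⟩
    have h1 := h.equiv θ (e x)
    rw [e.left_inv hx] at h1
    rw [h1, e.right_inv (h.tgt ▸ mem_univ _)]
  have hvF : vF ρ e = AE φ (fun _ => μ) := by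
    funext z
    exact vF_linear hρ hequiv (h.tgt ▸ mem_univ z)
  have hk : Killing (chartG e) (AE φ (fun _ => μ)) univ := by
    have := killing_vF hρ h.mem
    rwa [hvF, h.tgt] at this
  have hR : ∀ z X a, 0 ≤ Rc (chartG e) z X a := fun z X a =>
    Rc_nonneg_chartG hK h.mem (h.tgt ▸ mem_univ z) (hnn _) X a
  have hflat : ∀ z w, chartG e z w w ≤ chartG e 0 w w := fun z w =>
    le_flat hLK hk hR hμ (fun _ => rfl) z w
  have hinf : ∀ (x : M) (v : E), sqLen (E := E) x v ≤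
      sqLen (E := E) p ((mfderiv 𝓘(ℂ, E) 𝓘(ℂ, E) h.F x : E → E) v) := by
    intro x v
    have e1 := h.chartG_eq x v _ rfl
    have e2 := h.chartG_zero ((mfderiv 𝓘(ℂ, E) 𝓘(ℂ, E) e x : E → E) v)
    have e3 : sqLen (E := E) p ((mfderiv 𝓘(ℂ, E) 𝓘(ℂ, E) h.F x : E → E) v) =
        sqLen (E := E) p (D.symm ((mfderiv 𝓘(ℂ, E) 𝓘(ℂ, E) e x : E → E) v)) :=
      congrArg (sqLen (E := E) p) (h.mfderiv_F x v)
    exact (e1.symm.le.trans (hflat _ _)).trans (e2.trans e3.symm).le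
  have hdist : ∀ x y : M, dist x y ≤ √(sqLen (E := E) p (h.F x - h.F y)) := by
    intro x y
    have her := mem_maximalAtlas_real h.mem
    have hGc : Continuous (chartG e) := continuousOn_univ.1 hLK.smooth.continuousOn
    set w : E := e x - e y with hwdef
    have hcd : ∀ t : ℝ, HasDerivAt (fun t : ℝ => e y + t • w) w t := by
      intro t
      have h1 := (hasDerivAt_id t).smul_const w
      rw [one_smul] at h1
      exact h1.const_add (e y)
    have hcc : Continuous (fun t : ℝ => e y + t • w) :=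
      continuous_iff_continuousAt.2 fun t => (hcd t).continuousAt
    have h1 := dist_le_chart her zero_le_one (c := fun t : ℝ => e y + t • w) (c' := fun _ => w)
      (fun t _ => (hcd t).hasDerivWithinAt) continuousOn_const (fun t _ => h.tgt ▸ mem_univ _)
    have e1 : e.symm (e y + (0:ℝ) • w) = y := by
      rw [zero_smul, add_zero, e.left_inv (h.src ▸ mem_univ y)]
    have e2 : e.symm (e y + (1:ℝ) • w) = x := by
      rw [one_smul, hwdef, add_sub_cancel, e.left_inv (h.src ▸ mem_univ x)]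
    simp only [e1, e2] at h1
    have h2 : ∫ t in (0:ℝ)..1, √(chartG e (e y + t • w) w w) ≤
        ∫ t in (0:ℝ)..1, √(chartG e 0 w w) := by
      apply intervalIntegral.integral_mono_on zero_le_one
      · apply Continuous.intervalIntegrable
        exact (((hGc.comp hcc).clm_apply continuous_const).clm_apply continuous_const).sqrt
      · exact _root_.intervalIntegrable_const
      · intro t _
        exact Real.sqrt_le_sqrt (hflat _ _)
    rw [intervalIntegral.integral_const, sub_zero, one_smul, h.chartG_zero] at h2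
    have h3 : D.symm w = h.F x - h.F y := by
      rw [h.F_apply, h.F_apply, ← map_sub]
    rw [h3] at h2
    rw [dist_comm]
    exact h1.trans h2
  refine ⟨h.F, hF, fun F' hF' => ?_, hgr.1, hinf, hdist, fun g hgd hgc => ?_⟩
  · apply Diffeomorph.ext
    intro x
    have h1 := linear_in_F (h := F') hF ⟨hfix, hμ, hw⟩ (F'.contMDiff.mdifferentiable (by simp))
      (fun t x => by rw [hF'.equivariant, hw]) x
    rw [h1, hF'.deriv]
  · have hFd : MDifferentiable 𝓘(ℂ, E) 𝓘(ℂ, E) h.F := h.F.contMDiff.mdifferentiable (by simp)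
    have hlin := fun x => linear_in_F (h := h.F ∘ g) hF ⟨hfix, hμ, hw⟩ (hFd.comp hgd)
      (fun t x => by
        simp only [Function.comp_apply]
        rw [hgc, hF.equivariant, hw]) x
    have hgp : g p = p := by
      have h1 := hlin p
      rw [hF.base] at h1
      have h2 : (mfderiv 𝓘(ℂ, E) 𝓘(ℂ, E) (h.F ∘ g) p : E → E) 0 = 0 :=
        map_zero (mfderiv 𝓘(ℂ, E) 𝓘(ℂ, E) (h.F ∘ g) p)
      have h3 : h.F (g p) = 0 := h1.trans h2
      exact h.F.injective (h3.trans hF.base.symm)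
    refine ⟨hgp, fun x => ?_⟩
    have h1 := hlin x
    let DF : E →L[ℂ] E := mfderiv 𝓘(ℂ, E) 𝓘(ℂ, E) h.F p
    let Dg : E →L[ℂ] E := mfderiv 𝓘(ℂ, E) 𝓘(ℂ, E) g p
    have h2 : HasMFDerivAt 𝓘(ℂ, E) 𝓘(ℂ, E) h.F p DF := (hFd p).hasMFDerivAt
    have h2' : HasMFDerivAt 𝓘(ℂ, E) 𝓘(ℂ, E) h.F (g p) DF := by rw [hgp]; exact h2
    have h3 : HasMFDerivAt 𝓘(ℂ, E) 𝓘(ℂ, E) g p Dg := (hgd p).hasMFDerivAt
    have h4 : HasMFDerivAt 𝓘(ℂ, E) 𝓘(ℂ, E) (h.F ∘ g) p (DF.comp Dg) := h2'.comp p h3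
    have h5 : (mfderiv 𝓘(ℂ, E) 𝓘(ℂ, E) (h.F ∘ g) p : E → E) (h.F x) = DF (Dg (h.F x)) := by
      rw [h4.mfderiv]
      rfl
    have h6 : DF (Dg (h.F x)) = Dg (h.F x) := hF.deriv _
    rw [h5, h6] at h1
    exact h1

end Vale.Agent.P253.U165
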