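import Vale.Agent.P253.U165.Lin

/-!
P253: growth of the equivariant global coordinates.
-/

open scoped Manifold ContDiff Topology Bundle ENNReal
open Set Metric Complex Filter Bundle IsManifold MeasureTheory Manifold Vale.Agent.P253.Mfd

set_option maxSynthPendingDepth 3
set_option linter.unusedSectionVars false

noncomputable section

namespace Vale.Agent.P253.U165

variable {E : Type*} [NormedAddCommGroup E] [NormedSpace ℂ E] [FiniteDimensional ℂ E]
  {M : Type*} [MetricSpace M] [ChartedSpace E M]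
  [IsManifold 𝓘(ℂ, E) 1 M] [IsManifold 𝓘(ℝ, E) ∞ M]
  [RiemannianBundle (fun x : M => TangentSpace 𝓘(ℝ, E) x)]
  [IsContMDiffRiemannianBundle 𝓘(ℝ, E) ∞ E (fun x : M => TangentSpace 𝓘(ℝ, E) x)]
  [IsRiemannianManifold 𝓘(ℝ, E) M]
  {ι : Type*} [Fintype ι]

/-- the equivariant coordinates have at most exponential growth -/
theorem upper_growth (hK : IsKahler E M) [CompleteSpace M]
    [NoncompactSpace M] [ConnectedSpace M]
    (hnn : ∀ x : M, NonnegBisectionalAt E x) {p : M} (hpos : PosBisectionalAt E p)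
    {ρ : ℝ → M → M} (hρ : IsHolIsomFlow E ρ)
    (hp : ∀ θ, ρ θ p = p) {e : OpenPartialHomeomorph M E}
    (he : e ∈ maximalAtlas 𝓘(ℂ, E) 1 M) (htgt : e.target = univ)
    (hps : p ∈ e.source) (hep : e p = 0) {φ : E ≃L[ℂ] (ι → ℂ)} {m : ι → ℝ} (hm : ∀ j, 0 < m j)
    (heq : ∀ (θ : ℝ) (z : E), ρ θ (e.symm z) = e.symm (LE φ m (θ * I) z)) :
    ∃ C > 0, ∀ x ∈ e.source, ‖φ (e x)‖ ≤ C * Real.exp (C * dist p x) := by
  have hprop : ProperSpace M := properSpace_riemannian E M
  have her := mem_maximalAtlas_real he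
  obtain ⟨ρ₀, hρ₀, c, hc, L₀, hL₀, hstr⟩ := levi_strict hK hnn hpos
  have hesc : Continuous e.symm := by
    rw [← continuousOn_univ, ← htgt]
    exact e.continuousOn_symm
  have hes0 : e.symm 0 = p := by rw [← hep, e.left_inv hps]
  have hφ0 : Continuous (fun z : E => ‖φ z‖) := φ.continuous.norm
  obtain ⟨δ, hδ, hball⟩ : ∃ δ > 0, ∀ z : E, ‖φ z‖ ≤ δ → e.symm z ∈ ball p ρ₀ := by
    have h1 : φ.symm ⁻¹' (e.symm ⁻¹' (ball p ρ₀)) ∈ 𝓝 (0 : ι → ℂ) := by
      apply (hesc.comp φ.symm.continuous).continuousAt.preimage_mem_nhds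
      simp only [Function.comp_apply, map_zero, hes0]
      exact ball_mem_nhds p hρ₀
    obtain ⟨δ, hδ, h2⟩ := Metric.nhds_basis_closedBall.mem_iff.1 h1
    refine ⟨δ, hδ, fun z hz => ?_⟩
    have h3 := h2 (show φ z ∈ closedBall 0 δ by simpa using hz)
    simpa using h3
  -- lower bound for the speed
  set Mm : ℝ := ∑ j, m j with hMm
  obtain ⟨N₀, hN₀, hNlow⟩ : ∃ N₀ > 0, ∀ z : E,
      Real.exp (-Mm) * δ ≤ ‖φ z‖ → ‖φ z‖ ≤ δ → N₀ ≤ chartG e z (AE φ m z) (AE φ m z) := by
    set P : Set E := {z | ‖φ z‖ ≤ δ} ∩ {z | Real.exp (-Mm) * δ ≤ ‖φ z‖}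
      with hP
    have hPc : IsCompact P := (isCompact_coordBall φ δ).inter_right
      (isClosed_le continuous_const hφ0)
    have hcont : Continuous (fun z => chartG e z (AE φ m z) (AE φ m z)) := by
      have h1 : Continuous (chartG e) := by
        rw [← continuousOn_univ, ← htgt]
        exact (contDiffOn_chartG her).continuousOn
      exact (h1.clm_apply continuous_AE).clm_apply continuous_AE
    rcases P.eq_empty_or_nonempty with hemp | hne
    · refine ⟨1, one_pos, fun z h1 h2 => ?_⟩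
      have : z ∈ P := ⟨h2, h1⟩
      simp [hemp] at this
    · obtain ⟨z₀, hz₀, hmin⟩ := hPc.exists_isMinOn hne hcont.continuousOn
      refine ⟨chartG e z₀ (AE φ m z₀) (AE φ m z₀), ?_, fun z h1 h2 => hmin ⟨h2, h1⟩⟩
      apply chartG_pos her (htgt ▸ mem_univ _)
      apply AE_ne_zero hm
      intro h0
      have h1 : Real.exp (-Mm) * δ ≤ ‖φ z₀‖ := hz₀.2
      rw [h0, map_zero, norm_zero] at h1
      have : 0 < Real.exp (-Mm) * δ := by positivity
      linarith only [h1, this]
  -- growth along the rays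
  have hgrow : ∀ z : E, ‖φ z‖ = δ → ∀ T : ℝ, 0 ≤ T →
      c * N₀ * T / 2 ≤ dist (e.symm z) (e.symm (LE φ m T z)) := by
    intro z hz T hT
    have h1 := growth hK hnn hρ hp (exists_far p) hρ₀ hc hstr he (w := fun ζ => LE φ m ζ z)
      (differentiable_LE z) (fun ζ => htgt ▸ mem_univ _)
      (fun θ ζ => by rw [heq, ← LE_add, add_comm])
      (fun t ht => hball _ ((norm_LE_nonpos' hm ht z).trans hz.le)) (N₀ := N₀)
      (fun t ht => by
        rw [deriv_LE]
        apply hNlow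
        · -- lower bound of the norm
          have h2 : z = LE φ m ((-t : ℝ) : ℂ) (LE φ m (t:ℂ) z) := by
            rw [← LE_add]; push_cast; rw [neg_add_cancel, LE_zero]
          have h3 : ‖φ z‖ ≤ Real.exp ((-t) * Mm) * ‖φ (LE φ m (t:ℂ) z)‖ := by
            conv_lhs => rw [h2]
            exact norm_LE_nonneg hm (by linarith only [ht, ht.2]) _
          have h4 : Real.exp ((-t) * Mm) ≤ Real.exp Mm := by
            apply Real.exp_le_exp.2
            have hMm0 : 0 ≤ Mm := Finset.sum_nonneg fun j _ => (hm j).le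
            nlinarith only [ht, hMm0, ht.1]
          have h5 : δ ≤ Real.exp Mm * ‖φ (LE φ m (t:ℂ) z)‖ := by
            rw [← hz]
            exact h3.trans (by gcongr)
          calc Real.exp (-Mm) * δ ≤ Real.exp (-Mm) * (Real.exp Mm * ‖φ (LE φ m (t:ℂ) z)‖) := by
                gcongr
            _ = ‖φ (LE φ m (t:ℂ) z)‖ := by
              rw [← mul_assoc, ← Real.exp_add, neg_add_cancel, Real.exp_zero, one_mul]
        · exact (norm_LE_nonpos' hm ht.2 z).trans hz.le) hT
    simpa [LE_zero] using h1  -- the bound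
  have hMm0 : 0 ≤ Mm := Finset.sum_nonneg fun j _ => (hm j).le
  set B := 2 * Mm / (c * N₀) with hB
  have hB0 : 0 ≤ B := by positivity
  set A := Real.exp (B * ρ₀) * δ with hA
  have hA0 : 0 < A := by positivity
  refine ⟨A + B + 1, by positivity, fun x hxs => ?_⟩
  have hfin : A * Real.exp (B * dist p x) ≤
      (A + B + 1) * Real.exp ((A + B + 1) * dist p x) := by
    gcongr <;> linarith only [hA0, hB0]
  refine le_trans ?_ hfin
  by_cases hsmall : ‖φ (e x)‖ ≤ δ
  · refine hsmall.trans ?_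
    have h1 : 1 ≤ Real.exp (B * ρ₀) := Real.one_le_exp (by positivity)
    have h2 : 1 ≤ Real.exp (B * dist p x) := Real.one_le_exp (by positivity)
    calc δ = 1 * δ * 1 := by ring
      _ ≤ Real.exp (B * ρ₀) * δ * Real.exp (B * dist p x) := by gcongr
  · push Not at hsmall
    obtain ⟨T, hT, hTn⟩ := exists_LE_norm_eq hm hδ hsmall
    set z := LE φ m ((-T : ℝ) : ℂ) (e x) with hz
    have hback : LE φ m (T:ℂ) z = e x := by
      rw [hz, ← LE_add]; push_cast; rw [add_neg_cancel, LE_zero]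
    have h1 := hgrow z hTn T hT
    rw [hback, e.left_inv hxs] at h1
    have h2 : dist (e.symm z) p < ρ₀ := hball z hTn.le
    have h4 : dist (e.symm z) x ≤ dist p x + ρ₀ := by
      have := dist_triangle (e.symm z) p x
      linarith only [this, h2]
    have h5 : T ≤ 2 * (dist p x + ρ₀) / (c * N₀) := by
      rw [le_div_iff₀ (by positivity)]
      linarith only [h1, h4]
    have h6 : T * Mm ≤ B * ρ₀ + B * dist p x := by
      calc T * Mm ≤ 2 * (dist p x + ρ₀) / (c * N₀) * Mm := by gcongr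
        _ = _ := by rw [hB]; ring
    rw [← hback]
    refine (norm_LE_nonneg hm hT z).trans ?_
    rw [hTn]
    calc Real.exp (T * Mm) * δ ≤ Real.exp (B * ρ₀ + B * dist p x) * δ := by gcongr
      _ = _ := by rw [Real.exp_add, hA]; ring

/-- the inverse of the equivariant coordinates has at most polynomial growth -/
theorem lower_growth (hK : IsKahler E M) (hnn : ∀ x : M, NonnegBisectionalAt E x)
    {ρ : ℝ → M → M} (hρ : IsHolIsomFlow E ρ) {p : M} {e : OpenPartialHomeomorph M E}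
    (he : e ∈ maximalAtlas 𝓘(ℂ, E) 1 M) (htgt : e.target = univ) (hsrc : e.source = univ)
    {φ : E ≃L[ℂ] (ι → ℂ)} {m : ι → ℝ} (hm : ∀ j, 0 < m j)
    (heq : ∀ (θ : ℝ) (z : E), ρ θ (e.symm z) = e.symm (LE φ m (θ * I) z))
    {κ : ℝ} (hκ : ∀ j k, m j ≤ κ * m k) :
    ∃ C > 0, ∀ x : M, dist p x ≤ C * (1 + ‖φ (e x)‖) ^ κ := by
  rcases isEmpty_or_nonempty ι with hι | hι
  · refine ⟨1, one_pos, fun x => ?_⟩
    have h1 : e x = e p := ext_coord (φ := φ) fun j => (hι.false j).elim
    have h2 : x = p := e.injOn (hsrc ▸ mem_univ x) (hsrc ▸ mem_univ p) h1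
    rw [h2, dist_self]
    positivity
  obtain ⟨k₀, hk₀⟩ := Finite.exists_min m
  have hc0 : 0 < m k₀ := hm k₀
  have hκ1 : 1 ≤ κ := by
    have := hκ k₀ k₀
    by_contra hcon
    push Not at hcon
    nlinarith only [this, hcon, hc0]
  have her := mem_maximalAtlas_real he
  have hLK : LocalKahler (chartG e) univ := htgt ▸ localKahler_chartG hK he
  have hequiv : ∀ θ : ℝ, ∀ x ∈ e.source,
      ρ θ x ∈ e.source ∧ e (ρ θ x) = LE φ m (θ * I) (e x) := by
    intro θ x hx
    refine ⟨hsrc ▸ mem_univ _, ?_⟩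
    have h1 := heq θ (e x)
    rw [e.left_inv hx] at h1
    rw [h1, e.right_inv (htgt ▸ mem_univ _)]
  have hvF : vF ρ e = AE φ m := by
    funext z
    exact vF_linear hρ hequiv (htgt ▸ mem_univ z)
  have hk : Killing (chartG e) (AE φ m) univ := by
    have := killing_vF hρ he
    rwa [hvF, htgt] at this
  have hR : ∀ z X a, 0 ≤ Rc (chartG e) z X a := fun z X a =>
    Rc_nonneg_chartG hK he (htgt ▸ mem_univ z) (hnn _) X a
  have hesc : Continuous e.symm := by
    rw [← continuousOn_univ, ← htgt]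
    exact e.continuousOn_symm
  have hGc : Continuous (chartG e) := continuousOn_univ.1 hLK.smooth.continuousOn
  set Λ := κ * m k₀ with hΛ
  have hΛ0 : 0 < Λ := by positivity
  have hcpt := isCompact_coordBall φ 1
  obtain ⟨D₀, hD₀⟩ := hcpt.exists_bound_of_continuousOn
    (f := fun z => dist p (e.symm z)) (continuous_const.dist hesc).continuousOn
  obtain ⟨S₀, hS₀⟩ := hcpt.exists_bound_of_continuousOn
    (f := fun z => √(chartG e z (AE φ m z) (AE φ m z)))
    (((hGc.clm_apply continuous_AE).clm_apply continuous_AE).sqrt).continuousOn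
  set D := max D₀ 0 with hD
  set S := max S₀ 0 with hS
  refine ⟨D + S / Λ + 1, by positivity, fun x => ?_⟩
  have hx : x = e.symm (e x) := (e.left_inv (hsrc ▸ mem_univ x)).symm
  set z := e x with hz
  have hpow1 : 1 ≤ (1 + ‖φ z‖) ^ κ := Real.one_le_rpow (by linarith only [norm_nonneg (φ z)])
    (by linarith only [hκ1])
  have hDb : ∀ y : E, ‖φ y‖ ≤ 1 → dist p (e.symm y) ≤ D := fun y hy =>
    ((le_abs_self _).trans (hD₀ y hy)).trans (le_max_left _ _)
  have hSb : ∀ y : E, ‖φ y‖ ≤ 1 → √(chartG e y (AE φ m y) (AE φ m y)) ≤ S := fun y hy =>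
    ((le_abs_self _).trans (hS₀ y hy)).trans (le_max_left _ _)
  have hD0 : 0 ≤ D := le_max_right _ _
  have hS0 : 0 ≤ S := le_max_right _ _
  by_cases hsmall : ‖φ z‖ ≤ 1
  · rw [hx]
    refine (hDb z hsmall).trans ?_
    have : D ≤ D + S / Λ + 1 := by
      have : 0 ≤ S / Λ := by positivity
      linarith only [this]
    nlinarith only [this, hpow1, hD0]
  push Not at hsmall
  obtain ⟨T, hT, hTn⟩ := exists_LE_norm_eq hm one_pos hsmall
  set z₁ := LE φ m ((-T : ℝ) : ℂ) z with hz₁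
  have hback : LE φ m (T:ℂ) z₁ = z := by
    rw [hz₁, ← LE_add]; push_cast; rw [add_neg_cancel, LE_zero]
  have hl : ∀ t : ℝ, HasDerivAt (fun s : ℝ => LE φ m (s : ℂ) z₁) (AE φ m (LE φ m (t : ℂ) z₁)) t := by
    intro t
    have h3 : HasDerivAt (fun s : ℝ => (s:ℂ)) 1 t := (hasDerivAt_id t).ofReal_comp
    have h4 := (hasDerivAt_LE (φ := φ) (m := m) (t:ℂ) z₁).scomp t h3
    rw [one_smul] at h4
    exact h4
  have hlc : Continuous (fun s : ℝ => LE φ m (s : ℂ) z₁) :=
    continuous_iff_continuousAt.2 fun t => (hl t).continuousAt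
  have h1 := dist_le_chart her hT (c := fun s : ℝ => LE φ m (s : ℂ) z₁)
    (c' := fun t : ℝ => AE φ m (LE φ m (t : ℂ) z₁))
    (fun t _ => (hl t).hasDerivWithinAt) (continuous_AE.comp hlc).continuousOn
    (fun t _ => htgt ▸ mem_univ _)
  simp only [ofReal_zero, LE_zero] at h1
  rw [hback] at h1
  have h2 : ∀ t ∈ Icc (0:ℝ) T, √(chartG e (LE φ m (t : ℂ) z₁) (AE φ m (LE φ m (t : ℂ) z₁))
      (AE φ m (LE φ m (t : ℂ) z₁))) ≤ S * Real.exp (Λ * t) := by
    intro t ht
    have h3 := flow_le' hLK hk hR hm (Λ := Λ) (fun j => hκ j k₀) z₁ (AE φ m z₁) ht.1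
    rw [← AE_LE] at h3
    have h4 := hSb z₁ hTn.le
    have h5 : 0 ≤ chartG e z₁ (AE φ m z₁) (AE φ m z₁) := by
      by_cases h0 : AE φ m z₁ = 0
      · simp [h0]
      · exact (hLK.pos z₁ (mem_univ _) _ h0).le
    apply Real.sqrt_le_iff.2
    refine ⟨by positivity, h3.trans ?_⟩
    have h6 : chartG e z₁ (AE φ m z₁) (AE φ m z₁) ≤ S ^ 2 := by
      have := Real.sqrt_le_sqrt_iff (x := chartG e z₁ (AE φ m z₁) (AE φ m z₁)) (y := S ^ 2)
        (by positivity)
      rw [← this, Real.sqrt_sq hS0]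
      exact h4
    have h7 : Real.exp (2 * Λ * t) = Real.exp (Λ * t) ^ 2 := by
      rw [← Real.exp_nat_mul]; congr 1; push_cast; ring
    rw [h7]
    nlinarith only [h6, sq_nonneg (Real.exp (Λ * t))]
  have h3 : ∫ t in (0:ℝ)..T, √(chartG e (LE φ m (t : ℂ) z₁) (AE φ m (LE φ m (t : ℂ) z₁))
      (AE φ m (LE φ m (t : ℂ) z₁))) ≤ ∫ t in (0:ℝ)..T, S * Real.exp (Λ * t) := by
    apply intervalIntegral.integral_mono_on hT
    · apply Continuous.intervalIntegrable
      exact (((hGc.comp hlc).clm_apply (continuous_AE.comp hlc)).clm_apply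
        (continuous_AE.comp hlc)).sqrt
    · apply Continuous.intervalIntegrable
      fun_prop
    · exact h2
  have h4 : ∫ t in (0:ℝ)..T, S * Real.exp (Λ * t) = S / Λ * (Real.exp (Λ * T) - 1) := by
    rw [intervalIntegral.integral_const_mul, intervalIntegral.integral_comp_mul_left
      (fun t => Real.exp t) hΛ0.ne', integral_exp]
    rw [mul_zero, Real.exp_zero, smul_eq_mul]
    field_simp
  have h5 : Real.exp (Λ * T) ≤ (1 + ‖φ z‖) ^ κ := by
    have h6 := norm_LE_nonpos (φ := φ) hk₀ (show -T ≤ 0 by linarith only [hT]) z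
    rw [← hz₁, hTn] at h6
    have h7 : Real.exp (m k₀ * T) ≤ ‖φ z‖ := by
      have h8 : Real.exp (m k₀ * T) * Real.exp (m k₀ * -T) = 1 := by
        rw [← Real.exp_add, show m k₀ * T + m k₀ * -T = 0 by ring, Real.exp_zero]
      calc Real.exp (m k₀ * T) = Real.exp (m k₀ * T) * 1 := (mul_one _).symm
        _ ≤ Real.exp (m k₀ * T) * (Real.exp (m k₀ * -T) * ‖φ z‖) := by gcongr
        _ = ‖φ z‖ := by rw [← mul_assoc, h8, one_mul]
    calc Real.exp (Λ * T) = (Real.exp (m k₀ * T)) ^ κ := by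
          rw [← Real.exp_mul, hΛ]; congr 1; ring
      _ ≤ (1 + ‖φ z‖) ^ κ := by
          apply Real.rpow_le_rpow (Real.exp_pos _).le _ (by linarith only [hκ1])
          linarith only [h7]
  have h6 := hDb z₁ hTn.le
  have h7 := dist_triangle p (e.symm z₁) (e.symm z)
  have h8 : 0 ≤ S / Λ := by positivity
  rw [hx]
  rw [h4] at h3
  nlinarith only [h1, h3, h5, h6, h7, h8, hpow1, hD0]

end Vale.Agent.P253.U165
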