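import Vale.Agent.P253.Bdl.B2

/-!
P253: metric comparison for a Kähler metric on the model space with nonnegative bisectional
curvature, invariant under a linear circle-type action with positive weights.
-/

open scoped ContDiff Topology
open Set Metric Complex Filter Vale.Agent.P253.Mfd

set_option maxSynthPendingDepth 3
set_option linter.unusedSectionVars false

noncomputable section

namespace Vale.Agent.P253.U165

variable {ι : Type*} [Fintype ι] {E : Type*} [NormedAddCommGroup E] [NormedSpace ℂ E]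
  {φ : E ≃L[ℂ] (ι → ℂ)} {m s : ι → ℝ}

theorem AE_add (a b : E) : AE φ m (a + b) = AE φ m a + AE φ m b := by
  apply ext_coord (φ := φ); intro j; simp only [AE_coord, map_add, Pi.add_apply]; ring

theorem AE_smul (c : ℂ) (a : E) : AE φ m (c • a) = c • AE φ m a := by
  apply ext_coord (φ := φ); intro j
  simp only [AE_coord, map_smul, Pi.smul_apply, smul_eq_mul]; ring

theorem AE_zero_right : AE φ m 0 = 0 := by
  apply ext_coord (φ := φ); intro j; simp [AE_coord]

theorem LE_add_right (ζ : ℂ) (a b : E) : LE φ m ζ (a + b) = LE φ m ζ a + LE φ m ζ b := by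
  apply ext_coord (φ := φ); intro j; simp only [LE_coord, map_add, Pi.add_apply]; ring

theorem LE_smul (ζ c : ℂ) (a : E) : LE φ m ζ (c • a) = c • LE φ m ζ a := by
  apply ext_coord (φ := φ); intro j
  simp only [LE_coord, map_smul, Pi.smul_apply, smul_eq_mul]; ring

theorem AE_LE (ζ : ℂ) (a : E) : AE φ m (LE φ m ζ a) = LE φ m ζ (AE φ m a) := by
  apply ext_coord (φ := φ); intro j
  simp only [LE_coord, AE_coord]; ring

/-- the generator as a continuous complex linear map -/
def AEL (φ : E ≃L[ℂ] (ι → ℂ)) (m : ι → ℝ) : E →L[ℂ] E :=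
  (φ.symm : (ι → ℂ) →L[ℂ] E).comp ((ContinuousLinearMap.pi fun j =>
    (m j : ℂ) • (ContinuousLinearMap.proj j : (ι → ℂ) →L[ℂ] ℂ)).comp (φ : E →L[ℂ] (ι → ℂ)))

theorem AEL_apply (a : E) : AEL φ m a = AE φ m a := rfl

theorem hasFDerivAt_AE (z : E) :
    HasFDerivAt (AE φ m) ((AEL φ m).restrictScalars ℝ) z :=
  ((AEL φ m).hasFDerivAt (x := z)).restrictScalars ℝ

theorem fderiv_AE (z a : E) : fderiv ℝ (AE φ m) z a = AE φ m a := by
  rw [(hasFDerivAt_AE z).fderiv]; rfl

theorem contDiff_AE : ContDiff ℂ ∞ (AE φ m) := (AEL φ m).contDiff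

/-- the component of `a` along the coordinate `j` -/
def comp [DecidableEq ι] (φ : E ≃L[ℂ] (ι → ℂ)) (j : ι) (a : E) : E :=
  φ.symm (Pi.single j (φ a j))

theorem sum_comp [DecidableEq ι] (a : E) : ∑ j, comp φ j a = a := by
  apply ext_coord (φ := φ); intro k
  rw [map_sum, Finset.sum_apply, Finset.sum_eq_single k]
  · simp [comp]
  · intro j _ hj; simp [comp, hj.symm]
  · simp

theorem coord_real_smul (c : ℝ) (a : E) (j : ι) : φ (c • a) j = (c : ℂ) * φ a j := by
  rw [show (c • a : E) = (c : ℂ) • a from (Complex.coe_smul c a).symm, map_smul, Pi.smul_apply,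
    smul_eq_mul]

theorem AE_comp [DecidableEq ι] (j : ι) (a : E) : AE φ s (comp φ j a) = s j • comp φ j a := by
  apply ext_coord (φ := φ); intro k
  rw [AE_coord, coord_real_smul]
  by_cases hk : k = j
  · subst hk; simp [comp]
  · simp [comp, hk]

theorem AE_sum [DecidableEq ι] (F : Finset ι) (f : ι → E) :
    AE φ s (∑ j ∈ F, f j) = ∑ j ∈ F, AE φ s (f j) :=
  map_sum (AEL φ s) f F

/-- a diagonal operator with entries depending on the weights is symmetric -/
theorem diag_symm (H : E →L[ℝ] E →L[ℝ] ℝ) (hA : ∀ a b, H (AE φ m a) b = H a (AE φ m b))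
    (hs : ∀ j k, m j = m k → s j = s k) (a b : E) :
    H (AE φ s a) b = H a (AE φ s b) := by
  classical
  have horth : ∀ j k, m j ≠ m k → H (comp φ j a) (comp φ k b) = 0 := by
    intro j k hjk
    have h1 := hA (comp φ j a) (comp φ k b)
    rw [AE_comp, AE_comp, map_smul, map_smul, smul_apply, smul_eq_mul,
      smul_eq_mul] at h1
    have h2 : (m j - m k) * H (comp φ j a) (comp φ k b) = 0 := by linarith only [h1]
    exact (mul_eq_zero.1 h2).resolve_left (sub_ne_zero.2 hjk)
  have hH : ∀ f g : ι → E, H (∑ j, f j) (∑ k, g k) = ∑ j, ∑ k, H (f j) (g k) := by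
    intro f g
    have h1 : H (∑ j, f j) = ∑ j, H (f j) := map_sum H f Finset.univ
    rw [h1, sum_apply]
    exact Finset.sum_congr rfl fun j _ => map_sum (H (f j)) g Finset.univ
  have hAs : ∀ a : E, AE φ s a = ∑ j, s j • comp φ j a := by
    intro a
    have h1 := AE_sum (φ := φ) (s := s) Finset.univ (fun j => comp φ j a)
    rw [sum_comp] at h1
    rw [h1]
    exact Finset.sum_congr rfl fun j _ => AE_comp j a
  have h1 : H (AE φ s a) b = ∑ j, ∑ k, s j * H (comp φ j a) (comp φ k b) := by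
    have h2 := hH (fun j => s j • comp φ j a) (fun k => comp φ k b)
    rw [← hAs, sum_comp] at h2
    rw [h2]
    refine Finset.sum_congr rfl fun j _ => Finset.sum_congr rfl fun k _ => ?_
    rw [map_smul, smul_apply, smul_eq_mul]
  have h2 : H a (AE φ s b) = ∑ j, ∑ k, s k * H (comp φ j a) (comp φ k b) := by
    have h2 := hH (fun j => comp φ j a) (fun k => s k • comp φ k b)
    rw [← hAs, sum_comp] at h2
    rw [h2]
    refine Finset.sum_congr rfl fun j _ => Finset.sum_congr rfl fun k _ => ?_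
    rw [map_smul, smul_eq_mul]
  rw [h1, h2]
  refine Finset.sum_congr rfl fun j _ => Finset.sum_congr rfl fun k _ => ?_
  by_cases hjk : m j = m k
  · rw [hs j k hjk]
  · rw [horth j k hjk, mul_zero, mul_zero]

/-- the top weight bounds a symmetric diagonal operator -/
theorem diag_le (H : E →L[ℝ] E →L[ℝ] ℝ) (hA : ∀ a b, H (AE φ m a) b = H a (AE φ m b))
    (hpos : ∀ a, 0 ≤ H a a) {Λ : ℝ} (hΛ : ∀ j, m j ≤ Λ) (a : E) :
    H (AE φ m a) a ≤ Λ * H a a := by
  have h1 : AE φ (fun j => √(Λ - m j)) (AE φ (fun j => √(Λ - m j)) a) = Λ • a - AE φ m a := by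
    apply ext_coord (φ := φ); intro j
    rw [AE_coord, AE_coord, map_sub, Pi.sub_apply, AE_coord, ← mul_assoc, ← ofReal_mul,
      Real.mul_self_sqrt (sub_nonneg.2 (hΛ j))]
    rw [coord_real_smul]
    push_cast
    ring
  have h2 := diag_symm (s := fun j => √(Λ - m j)) H hA (fun j k hjk => by simp only [hjk])
    (AE φ (fun j => √(Λ - m j)) a) a
  have h3 := hpos (AE φ (fun j => √(Λ - m j)) a)
  rw [h1, map_sub, map_smul, sub_apply, smul_apply,
    smul_eq_mul] at h2
  linarith only [h2, h3]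

variable [FiniteDimensional ℂ E] {G : E → E →L[ℝ] E →L[ℝ] ℝ}

theorem tendsto_LE_atBot (hm : ∀ j, 0 < m j) (z : E) :
    Tendsto (fun t : ℝ => LE φ m (t : ℂ) z) atBot (𝓝 0) := by
  obtain ⟨c, hc, hcm⟩ := exists_minw hm
  have h1 : Tendsto (fun t : ℝ => φ (LE φ m (t : ℂ) z)) atBot (𝓝 0) := by
    rw [tendsto_zero_iff_norm_tendsto_zero]
    have h2 : Tendsto (fun t : ℝ => Real.exp (c * t) * ‖φ z‖) atBot (𝓝 (0 * ‖φ z‖)) := by
      apply Tendsto.mul_const
      exact Real.tendsto_exp_atBot.comp (tendsto_id.const_mul_atBot hc)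
    rw [zero_mul] at h2
    refine squeeze_zero' (Eventually.of_forall fun t => norm_nonneg _) ?_ h2
    filter_upwards [eventually_le_atBot 0] with t ht
    exact norm_LE_nonpos hcm ht z
  have h2 := (φ.symm.continuous.tendsto 0).comp h1
  rw [map_zero] at h2
  refine h2.congr fun t => ?_
  simp

/-- the top eigenvalue bound everywhere -/
theorem top_le (h : LocalKahler G univ) (hk : Killing G (AE φ m) univ)
    (hR : ∀ z X a, 0 ≤ Rc G z X a) (hm : ∀ j, 0 < m j) {Λ : ℝ} (hΛ : ∀ j, m j ≤ Λ) (z w : E) :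
    Sfun G (AE φ m) z w ≤ Λ * G z w w := by
  have hGc : Continuous G := continuousOn_univ.1 h.smooth.continuousOn
  have hdG : Continuous (fderiv ℝ G) := by
    have h1 : ContDiff ℝ ∞ G := contDiffOn_univ.1 h.smooth
    exact h1.continuous_fderiv (by simp)
  have hv0 : AE φ m (0 : E) = 0 := AE_zero_right
  -- at the origin
  have hsym : ∀ a b, G 0 (AE φ m a) b = G 0 a (AE φ m b) := by
    intro a b
    have h1 := Nop_symm h (contDiff_AE.contDiffOn.differentiableOn (by simp)) hk (mem_univ 0) a b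
    simp only [Nop, fderiv_AE, hv0, map_zero, zero_apply, add_zero] at h1
    rw [h1]
    exact h.symm 0 (mem_univ _) _ _
  have hbase : ∀ a, G 0 (AE φ m a) a ≤ Λ * G 0 a a := fun a =>
    diag_le (G 0) hsym (fun a => by
      by_cases ha : a = 0
      · simp [ha]
      · exact (h.pos 0 (mem_univ _) a ha).le) hΛ a
  obtain ⟨c, hc, hlow⟩ := h.exists_lower (isCompact_closedBall (0 : E) 1) (subset_univ _)
  -- near the origin
  set K : E → E →L[ℝ] E →L[ℝ] ℝ := fun z => (1 / 2 : ℝ) • fderiv ℝ G z (AE φ m z) +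
    (G z).comp ((AEL φ m).restrictScalars ℝ) - Λ • G z with hK
  have hKc : Continuous K := by
    have h1 : Continuous (fun z => fderiv ℝ G z (AE φ m z)) := hdG.clm_apply continuous_AE
    exact ((h1.const_smul (1 / 2 : ℝ)).add (hGc.clm_comp continuous_const)).sub
      (hGc.const_smul Λ)
  have hKeq : ∀ z a, K z a a = Sfun G (AE φ m) z a - Λ * G z a a := by
    intro z a
    simp only [hK, Sfun, fderiv_AE, sub_apply, add_apply,
      smul_apply, smul_eq_mul, ContinuousLinearMap.comp_apply,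
      ContinuousLinearMap.coe_restrictScalars', AEL_apply]
    ring
  have hK0 : ∀ a, K 0 a a ≤ 0 := by
    intro a
    rw [hKeq, Sfun, hv0, fderiv_AE]
    have := hbase a
    simp only [map_zero, zero_apply, zero_add]
    linarith only [this]
  have hnear : ∀ ε > 0, ∃ δ > 0, ∀ z : E, ‖z‖ < δ → ∀ a,
      Sfun G (AE φ m) z a ≤ (Λ + ε) * G z a a := by
    intro ε hε
    have h1 : ∀ᶠ z in 𝓝 (0 : E), ‖K z - K 0‖ < ε * c := by
      have h2 : Tendsto (fun z => ‖K z - K 0‖) (𝓝 0) (𝓝 ‖K 0 - K 0‖) :=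
        ((hKc.sub continuous_const).norm).tendsto 0
      rw [sub_self, norm_zero] at h2
      exact h2.eventually (gt_mem_nhds (by positivity))
    obtain ⟨δ, hδ, h2⟩ := Metric.eventually_nhds_iff.1 h1
    refine ⟨min δ 1, lt_min hδ one_pos, fun z hz a => ?_⟩
    have hz1 : dist z 0 < δ := by rw [dist_zero_right]; exact hz.trans_le (min_le_left _ _)
    have hz2 : z ∈ closedBall (0 : E) 1 := by
      rw [mem_closedBall, dist_zero_right]; exact (hz.trans_le (min_le_right _ _)).le
    have h3 : (K z - K 0) a a ≤ ε * c * ‖a‖ ^ 2 := by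
      calc (K z - K 0) a a ≤ ‖(K z - K 0) a a‖ := Real.le_norm_self _
        _ ≤ ‖K z - K 0‖ * ‖a‖ * ‖a‖ := ContinuousLinearMap.le_opNorm₂ _ _ _
        _ ≤ ε * c * ‖a‖ * ‖a‖ := by gcongr; exact (h2 hz1).le
        _ = _ := by ring
    have h4 := hlow z hz2 a
    have h5 := hK0 a
    have h6 := hKeq z a
    simp only [sub_apply] at h3
    nlinarith only [h3, h4, h5, h6, hε, hc]
  -- propagate along the flow
  refine le_of_forall_pos_le_add fun η hη => ?_
  have hGw : 0 ≤ G z w w := by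
    by_cases hw : w = 0
    · simp [hw]
    · exact (h.pos z (mem_univ _) w hw).le
  set ε := η / (G z w w + 1) with hε
  have hε0 : 0 < ε := by positivity
  obtain ⟨δ, hδ, hn⟩ := hnear ε hε0
  have h1 := ((tendsto_LE_atBot (φ := φ) hm z).norm.eventually
    (gt_mem_nhds (by simpa using hδ : ‖(0 : E)‖ < δ)))
  obtain ⟨T, hT0, hT⟩ := ((eventually_le_atBot (0 : ℝ)).and h1).exists
  have h2 := top_eigenvalue_step h (contDiff_AE.contDiffOn) hk (fun z _ => hR z)
    (y := fun t : ℝ => LE φ m (t : ℂ) z) hT0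
    (fun t _ => by
      have h3 : HasDerivAt (fun s : ℝ => (s:ℂ)) 1 t := (hasDerivAt_id t).ofReal_comp
      have h4 := (hasDerivAt_LE (φ := φ) (m := m) (t:ℂ) z).scomp t h3
      rw [one_smul] at h4
      exact h4.hasDerivWithinAt)
    (fun t _ => mem_univ _) (Λ := Λ + ε) (hn _ hT) w
  simp only [ofReal_zero, LE_zero] at h2
  have h3 : ε * G z w w ≤ η := by
    rw [hε, div_mul_eq_mul_div, div_le_iff₀ (by positivity)]
    nlinarith only [hη, hGw]
  linarith only [h2, h3]

/-- the metric grows at most like `exp (2 Λ t)` along the flow -/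
theorem flow_le (h : LocalKahler G univ) (hk : Killing G (AE φ m) univ)
    (hR : ∀ z X a, 0 ≤ Rc G z X a) (hm : ∀ j, 0 < m j) {Λ : ℝ} (hΛ : ∀ j, m j ≤ Λ) (z w : E) :
    Antitone (fun t : ℝ => Real.exp (-(2 * Λ) * t) *
      G (LE φ m (t : ℂ) z) (LE φ m (t : ℂ) w) (LE φ m (t : ℂ) w)) := by
  have hder : ∀ t : ℝ, HasDerivAt (fun t : ℝ => Real.exp (-(2 * Λ) * t) *
      G (LE φ m (t : ℂ) z) (LE φ m (t : ℂ) w) (LE φ m (t : ℂ) w))
      (-(2 * Λ) * Real.exp (-(2 * Λ) * t) *
        G (LE φ m (t : ℂ) z) (LE φ m (t : ℂ) w) (LE φ m (t : ℂ) w) +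
      Real.exp (-(2 * Λ) * t) * (2 * Sfun G (AE φ m) (LE φ m (t : ℂ) z) (LE φ m (t : ℂ) w))) t := by
    intro t
    have hl : ∀ u : E, HasDerivAt (fun s : ℝ => LE φ m (s : ℂ) u) (AE φ m (LE φ m (t : ℂ) u)) t := by
      intro u
      have h3 : HasDerivAt (fun s : ℝ => (s:ℂ)) 1 t := (hasDerivAt_id t).ofReal_comp
      have h4 := (hasDerivAt_LE (φ := φ) (m := m) (t:ℂ) u).scomp t h3
      rw [one_smul] at h4
      exact h4
    have h1 := hasDerivAt_energy (G := G) (v := AE φ m) (z := LE φ m (t : ℂ) z)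
      (h.differentiableAt (mem_univ _)) (h.symm _ (mem_univ _)) (hl z) rfl
      (α := fun s : ℝ => LE φ m (s : ℂ) w) (a := LE φ m (t : ℂ) w)
      (by rw [fderiv_AE]; exact hl w) rfl
    have h2 : HasDerivAt (fun t : ℝ => Real.exp (-(2 * Λ) * t))
        (-(2 * Λ) * Real.exp (-(2 * Λ) * t)) t := by
      have h3 : HasDerivAt (fun t : ℝ => -(2 * Λ) * t) (-(2 * Λ)) t := by
        simpa using (hasDerivAt_id t).const_mul (-(2 * Λ))
      exact h3.exp.congr_deriv (mul_comm _ _)
    exact h2.mul h1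
  apply antitone_of_deriv_nonpos
  · exact fun t => (hder t).differentiableAt
  · intro t
    rw [(hder t).deriv]
    have h2 := top_le h hk hR hm hΛ (LE φ m (t : ℂ) z) (LE φ m (t : ℂ) w)
    have h3 := Real.exp_pos (-(2 * Λ) * t)
    nlinarith only [h2, h3]

theorem flow_le' (h : LocalKahler G univ) (hk : Killing G (AE φ m) univ)
    (hR : ∀ z X a, 0 ≤ Rc G z X a) (hm : ∀ j, 0 < m j) {Λ : ℝ} (hΛ : ∀ j, m j ≤ Λ) (z w : E)
    {t : ℝ} (ht : 0 ≤ t) :
    G (LE φ m (t : ℂ) z) (LE φ m (t : ℂ) w) (LE φ m (t : ℂ) w) ≤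
      Real.exp (2 * Λ * t) * G z w w := by
  have h1 := flow_le h hk hR hm hΛ z w ht
  simp only [mul_zero, Real.exp_zero, one_mul, ofReal_zero, LE_zero] at h1
  have h2 : Real.exp (2 * Λ * t) * Real.exp (-(2 * Λ) * t) = 1 := by
    rw [← Real.exp_add, show 2 * Λ * t + -(2 * Λ) * t = 0 by ring, Real.exp_zero]
  calc _ = Real.exp (2 * Λ * t) * (Real.exp (-(2 * Λ) * t) *
        G (LE φ m (t : ℂ) z) (LE φ m (t : ℂ) w) (LE φ m (t : ℂ) w)) := by
          rw [← mul_assoc, h2, one_mul]
    _ ≤ _ := by gcongr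

/-- equal weights: the metric is at most the flat metric -/
theorem le_flat (h : LocalKahler G univ) (hk : Killing G (AE φ m) univ)
    (hR : ∀ z X a, 0 ≤ Rc G z X a) {μ : ℝ} (hμ : 0 < μ) (hm : ∀ j, m j = μ) (z w : E) :
    G z w w ≤ G 0 w w := by
  have hm0 : ∀ j, 0 < m j := fun j => by rw [hm j]; exact hμ
  have hLE : ∀ (t : ℝ) (u : E), LE φ m (t : ℂ) u = Real.exp (t * μ) • u := by
    intro t u
    apply ext_coord (φ := φ); intro j
    rw [LE_coord, hm j, coord_real_smul]
    push_cast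
    rfl
  have hanti := flow_le h hk hR hm0 (fun j => (hm j).le) z w
  have h1 : ∀ t : ℝ, t ≤ 0 → G z w w ≤ G (LE φ m (t : ℂ) z) w w := by
    intro t ht
    have h2 := hanti ht
    simp only [mul_zero, Real.exp_zero, one_mul, ofReal_zero, LE_zero] at h2
    refine h2.trans (le_of_eq ?_)
    rw [hLE t w]
    simp only [map_smul, smul_apply, smul_eq_mul]
    have h3 : Real.exp (-(2 * μ) * t) * (Real.exp (t * μ) * Real.exp (t * μ)) = 1 := by
      rw [← Real.exp_add, ← Real.exp_add,
        show -(2 * μ) * t + (t * μ + t * μ) = 0 by ring, Real.exp_zero]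
    calc _ = Real.exp (-(2 * μ) * t) * (Real.exp (t * μ) * Real.exp (t * μ)) *
          G (LE φ m (t : ℂ) z) w w := by ring
      _ = _ := by rw [h3, one_mul]
  have hGc : Continuous G := continuousOn_univ.1 h.smooth.continuousOn
  have h2 : Tendsto (fun t : ℝ => G (LE φ m (t : ℂ) z) w w) atBot (𝓝 (G 0 w w)) := by
    have h3 : Continuous (fun y => G y w w) :=
      (hGc.clm_apply continuous_const).clm_apply continuous_const
    exact (h3.tendsto 0).comp (tendsto_LE_atBot hm0 z)
  exact ge_of_tendsto h2 ((eventually_le_atBot (0 : ℝ)).mono h1)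

end Vale.Agent.P253.U165
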