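import Vale.Agent.P253.U165.Growth
import Vale.Agent.P253.U165.Defs

/-!
P253: the equivariant uniformization.
-/

open scoped Manifold ContDiff Topology Bundle ENNReal
open Set Metric Complex Filter Bundle IsManifold MeasureTheory Manifold Vale.Agent.P253.Mfd

set_option maxSynthPendingDepth 3
set_option linter.unusedSectionVars false

noncomputable section

namespace Vale.Agent.P253.U165

/-- entire maps commuting with rotations are linear -/
theorem linear_of_rot {E E' : Type*} [NormedAddCommGroup E] [NormedSpace ℂ E]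
    [NormedAddCommGroup E'] [NormedSpace ℂ E'] [CompleteSpace E'] {k : E → E'}
    (hk : Differentiable ℂ k) {μ : ℝ} (hμ : μ ≠ 0)
    (hrot : ∀ (t : ℝ) (z : E), k (exp (t * μ * I) • z) = exp (t * μ * I) • k z) (z : E) :
    k z = fderiv ℂ k 0 z := by
  have hc : ((μ : ℂ) * I) ≠ 0 := mul_ne_zero (by exact_mod_cast hμ) I_ne_zero
  have heuler : ∀ w : E, fderiv ℂ k w w = k w := by
    intro w
    have h1 : HasDerivAt (fun t : ℝ => exp (t * μ * I)) ((μ : ℂ) * I) 0 := by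
      have h2 : HasDerivAt (fun t : ℝ => (t : ℂ) * μ * I) ((μ : ℂ) * I) 0 := by
        have h3 := (((hasDerivAt_id (0:ℝ)).ofReal_comp).mul_const (μ : ℂ)).mul_const I
        simpa using h3
      have h3 := h2.cexp
      simpa using h3
    have h2 : HasDerivAt (fun t : ℝ => exp (t * μ * I) • w) (((μ : ℂ) * I) • w) 0 :=
      h1.smul_const w
    have h4 : HasFDerivAt k ((fderiv ℂ k w).restrictScalars ℝ) (exp (((0:ℝ):ℂ) * μ * I) • w) := by
      have : exp (((0:ℝ):ℂ) * μ * I) • w = w := by simp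
      rw [this]
      exact (hk w).hasFDerivAt.restrictScalars ℝ
    have h5 := h4.comp_hasDerivAt (0:ℝ) h2
    have h6 : HasDerivAt (fun t : ℝ => exp (t * μ * I) • k w) (((μ : ℂ) * I) • k w) 0 :=
      h1.smul_const (k w)
    have h7 : HasDerivAt (fun t : ℝ => exp (t * μ * I) • k w)
        (((fderiv ℂ k w).restrictScalars ℝ) (((μ : ℂ) * I) • w)) 0 := by
      refine h5.congr_of_eventuallyEq (Eventually.of_forall fun t => ?_)
      exact (hrot t w).symm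
    have h8 := h7.unique h6
    rw [ContinuousLinearMap.coe_restrictScalars', map_smul] at h8
    exact smul_right_injective E' hc h8
  set f : ℂ → E' := fun ζ => k (ζ • z) with hf
  have hfd : ∀ ζ, HasDerivAt f (fderiv ℂ k (ζ • z) z) ζ := by
    intro ζ
    have h1 : HasDerivAt (fun ζ : ℂ => ζ • z) z ζ := by
      simpa using (hasDerivAt_id ζ).smul_const z
    exact ((hk (ζ • z)).hasFDerivAt).comp_hasDerivAt ζ h1
  have hfD : Differentiable ℂ f := fun ζ => (hfd ζ).differentiableAt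
  have hdf : Differentiable ℂ (deriv f) := by
    have := (hfD.differentiableOn (s := univ)).deriv isOpen_univ
    exact differentiableOn_univ.1 this
  have hddf : Differentiable ℂ (deriv (deriv f)) := by
    have := (hdf.differentiableOn (s := univ)).deriv isOpen_univ
    exact differentiableOn_univ.1 this
  have hid : ∀ ζ : ℂ, ζ • deriv f ζ = f ζ := by
    intro ζ
    rw [(hfd ζ).deriv, ← map_smul, heuler]
  have h2 : ∀ ζ : ℂ, ζ • deriv (deriv f) ζ = 0 := by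
    intro ζ
    have h3 : HasDerivAt (fun ζ : ℂ => ζ • deriv f ζ) (ζ • deriv (deriv f) ζ + (1:ℂ) • deriv f ζ) ζ :=
      (hasDerivAt_id ζ).smul (hdf ζ).hasDerivAt
    have h4 : HasDerivAt f (ζ • deriv (deriv f) ζ + (1:ℂ) • deriv f ζ) ζ :=
      h3.congr_of_eventuallyEq (Eventually.of_forall fun ζ => (hid ζ).symm)
    have h5 := h4.unique (hfD ζ).hasDerivAt
    rw [one_smul] at h5
    exact add_eq_right.1 h5
  have h3 : ∀ ζ : ℂ, deriv (deriv f) ζ = 0 := by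
    have h4 : deriv (deriv f) = fun _ => 0 := by
      apply Continuous.ext_on (dense_compl_singleton (0:ℂ)) hddf.continuous continuous_const
      intro ζ hζ
      exact (smul_eq_zero.1 (h2 ζ)).resolve_left hζ
    exact fun ζ => congrFun h4 ζ
  have h4 := is_const_of_deriv_eq_zero hdf h3 1 0
  have h5 := hid 1
  rw [one_smul, h4, (hfd 0).deriv, zero_smul] at h5
  rw [h5, hf]
  simp

variable {E : Type*} [NormedAddCommGroup E] [NormedSpace ℂ E] [FiniteDimensional ℂ E]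
  {M : Type*} [MetricSpace M] [ChartedSpace E M]
  [IsManifold 𝓘(ℂ, E) 1 M] [IsManifold 𝓘(ℝ, E) ∞ M]

/-- the real derivative of a holomorphic map -/
theorem mfderiv_real_eq {f : M → E} {x : M}
    (hf : MDifferentiableAt 𝓘(ℂ, E) 𝓘(ℂ, E) f x) (v : E) :
    (mfderiv 𝓘(ℝ, E) 𝓘(ℝ, E) f x : E → E) v = (mfderiv 𝓘(ℂ, E) 𝓘(ℂ, E) f x : E → E) v := by
  let L : E →L[ℂ] E := mfderiv 𝓘(ℂ, E) 𝓘(ℂ, E) f x
  have h1 : HasMFDerivAt 𝓘(ℂ, E) 𝓘(ℂ, E) f x L := hf.hasMFDerivAt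
  have h2 : HasMFDerivAt 𝓘(ℝ, E) 𝓘(ℝ, E) f x (L.restrictScalars ℝ) := by
    refine ⟨h1.1, ?_⟩
    have h3 : HasFDerivWithinAt (writtenInExtChartAt 𝓘(ℂ, E) 𝓘(ℂ, E) x f) L
      (range 𝓘(ℂ, E)) (extChartAt 𝓘(ℂ, E) x x) := h1.2
    exact h3.restrictScalars ℝ
  rw [h2.mfderiv]
  rfl

variable [RiemannianBundle (fun x : M => TangentSpace 𝓘(ℝ, E) x)]
  [IsContMDiffRiemannianBundle 𝓘(ℝ, E) ∞ E (fun x : M => TangentSpace 𝓘(ℝ, E) x)]
  [IsRiemannianManifold 𝓘(ℝ, E) M]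
  {ι : Type*} [Fintype ι] {ρ : ℝ → M → M} {p : M}

/-- the equivariant global chart -/
theorem exists_chart (hK : IsKahler E M) [CompleteSpace M] [NoncompactSpace M] [ConnectedSpace M]
    (hnn : ∀ x : M, NonnegBisectionalAt E x) (hρ : IsHolIsomFlow E ρ)
    (hpos : PosBisectionalAt E p) (hfix : ∀ t, ρ t p = p) (φ : E ≃L[ℂ] (ι → ℂ)) {m : ι → ℝ}
    (hm : ∀ j, 0 < m j) (hw : ∀ (t : ℝ) (v : E),
      (mfderiv 𝓘(ℂ, E) 𝓘(ℂ, E) (ρ t) p : E → E) v = LE φ m (t * I) v) :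
    ∃ e ∈ maximalAtlas 𝓘(ℂ, E) 1 M, e.target = univ ∧ e.source = univ ∧ e p = 0 ∧
      (∀ (θ : ℝ) (z : E), ρ θ (e.symm z) = e.symm (LE φ m (θ * I) z)) ∧
      ∃ C > 0, ∀ x : M, ‖φ (e x)‖ ≤ C * Real.exp (C * dist p x) := by
  obtain ⟨e₀, he₀, δ, hδ, hps, hep, htgt, hequiv⟩ := exists_linearizing_chart hρ hfix φ m hw
  obtain ⟨Φ, hΦ0, hΦadd, hΦ, hcomm⟩ := exists_flow hK hnn hρ
  obtain ⟨e, he, het, hpe, hep', heq⟩ := exists_global_chart hm he₀ hδ hps hep htgt hΦ0 hΦadd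
    (flow_holo hρ hΦ0 hΦadd hΦ) (flow_linear hρ hm hΦ0 hΦ he₀ htgt hequiv) hequiv hcomm
  have hsrc := source_eq_univ hK hnn hpos hρ hfix he het hpe hep' hm heq
  obtain ⟨C, hC, hgr⟩ := upper_growth hK hnn hpos hρ hfix he het hpe hep' hm heq
  exact ⟨e, he, het, hsrc, hep', heq, C, hC, fun x => hgr x (hsrc ▸ mem_univ x)⟩

/-- data of the equivariant global chart, with the normalising differential -/
structure Chart (ρ : ℝ → M → M) (p : M) (φ : E ≃L[ℂ] (ι → ℂ)) (m : ι → ℝ)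
    (e : OpenPartialHomeomorph M E) (D : E ≃L[ℂ] E) : Prop where
  mem : e ∈ maximalAtlas 𝓘(ℂ, E) 1 M
  tgt : e.target = univ
  src : e.source = univ
  base : e p = 0
  equiv : ∀ (θ : ℝ) (z : E), ρ θ (e.symm z) = e.symm (LE φ m (θ * I) z)
  fix : ∀ t, ρ t p = p
  wt : ∀ (t : ℝ) (v : E), (mfderiv 𝓘(ℂ, E) 𝓘(ℂ, E) (ρ t) p : E → E) v = LE φ m (t * I) v
  der : ∀ v : E, (mfderiv 𝓘(ℂ, E) 𝓘(ℂ, E) e p : E → E) v = D v

section chart

variable {φ : E ≃L[ℂ] (ι → ℂ)} {m : ι → ℝ} {e : OpenPartialHomeomorph M E} {D : E ≃L[ℂ] E}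

/-- the normalised biholomorphism -/
def Chart.F (h : Chart ρ p φ m e D) : M ≃ₘ^1⟮𝓘(ℂ, E), 𝓘(ℂ, E)⟯ E where
  toFun x := D.symm (e x)
  invFun z := e.symm (D z)
  left_inv x := by
    change e.symm (D (D.symm (e x))) = x
    rw [ContinuousLinearEquiv.apply_symm_apply, e.left_inv (h.src ▸ mem_univ x)]
  right_inv z := by
    change D.symm (e (e.symm (D z))) = z
    rw [e.right_inv (h.tgt ▸ mem_univ _), ContinuousLinearEquiv.symm_apply_apply]
  contMDiff_toFun := by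
    have h1 := contMDiffOn_of_mem_maximalAtlas h.mem
    rw [h.src, contMDiffOn_univ] at h1
    exact (D.symm.contDiff.contMDiff).comp h1
  contMDiff_invFun := by
    have h1 := contMDiffOn_symm_of_mem_maximalAtlas h.mem
    rw [h.tgt, contMDiffOn_univ] at h1
    exact h1.comp (D.contDiff.contMDiff)

theorem Chart.F_apply (h : Chart ρ p φ m e D) (x : M) : h.F x = D.symm (e x) := rfl

theorem Chart.mdiff (h : Chart ρ p φ m e D) (x : M) : MDifferentiableAt 𝓘(ℂ, E) 𝓘(ℂ, E) e x :=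
  ((contMDiffOn_of_mem_maximalAtlas h.mem).contMDiffAt
    (e.open_source.mem_nhds (h.src ▸ mem_univ x))).mdifferentiableAt (by simp)

theorem Chart.mfderiv_F (h : Chart ρ p φ m e D) (x : M) (v : E) :
    (mfderiv 𝓘(ℂ, E) 𝓘(ℂ, E) h.F x : E → E) v =
      D.symm ((mfderiv 𝓘(ℂ, E) 𝓘(ℂ, E) e x : E → E) v) := by
  have h1 : HasMFDerivAt 𝓘(ℂ, E) 𝓘(ℂ, E) e x (mfderiv 𝓘(ℂ, E) 𝓘(ℂ, E) e x) :=
    (h.mdiff x).hasMFDerivAt
  have h2 : HasMFDerivAt 𝓘(ℂ, E) 𝓘(ℂ, E) (D.symm : E → E) (e x) (D.symm : E →L[ℂ] E) :=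
    (D.symm : E →L[ℂ] E).hasFDerivAt.hasMFDerivAt
  have h3 := h2.comp x h1
  have h4 : HasMFDerivAt 𝓘(ℂ, E) 𝓘(ℂ, E) h.F x
    ((D.symm : E →L[ℂ] E).comp (mfderiv 𝓘(ℂ, E) 𝓘(ℂ, E) e x)) := h3
  rw [h4.mfderiv]
  rfl

theorem Chart.comm (h : Chart ρ p φ m e D) (hρ : IsHolIsomFlow E ρ) (t : ℝ) (u : E) :
    D (LE φ m (t * I) u) = LE φ m (t * I) (D u) := by
  let De : E →L[ℂ] E := mfderiv 𝓘(ℂ, E) 𝓘(ℂ, E) e p
  let Dr : E →L[ℂ] E := mfderiv 𝓘(ℂ, E) 𝓘(ℂ, E) (ρ t) p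
  have h1 : HasMFDerivAt 𝓘(ℂ, E) 𝓘(ℂ, E) e p De := (h.mdiff p).hasMFDerivAt
  have h1' : HasMFDerivAt 𝓘(ℂ, E) 𝓘(ℂ, E) e (ρ t p) De := by
    rw [h.fix t]; exact h1
  have h2 : HasMFDerivAt 𝓘(ℂ, E) 𝓘(ℂ, E) (ρ t) p Dr := (hρ.holo t p).hasMFDerivAt
  have h3 : HasMFDerivAt 𝓘(ℂ, E) 𝓘(ℂ, E) (e ∘ ρ t) p (De.comp Dr) := h1'.comp p h2
  let L : E →L[ℂ] E := fderiv ℂ (LE φ m (t * I)) (e p)
  have h4 : HasMFDerivAt 𝓘(ℂ, E) 𝓘(ℂ, E) (LE φ m (t * I)) (e p) L :=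
    ((differentiable_LE_right (φ := φ) (m := m) (t * I) (e p)).hasFDerivAt).hasMFDerivAt
  have h5 : HasMFDerivAt 𝓘(ℂ, E) 𝓘(ℂ, E) (LE φ m (t * I) ∘ e) p (L.comp De) := h4.comp p h1
  have h6 : (e ∘ ρ t) = (LE φ m (t * I) ∘ e) := by
    funext x
    have h7 := h.equiv t (e x)
    rw [e.left_inv (h.src ▸ mem_univ x)] at h7
    change e (ρ t x) = _
    rw [h7, e.right_inv (h.tgt ▸ mem_univ _)]
    rfl
  rw [h6] at h3
  have h7 : De.comp Dr = L.comp De := hasMFDerivAt_unique h3 h5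
  have h8 : L = LEL φ m (t * I) := by
    have : HasFDerivAt (LE φ m (t * I)) (LEL φ m (t * I)) (e p) :=
      (LEL φ m (t * I)).hasFDerivAt
    exact this.fderiv
  have h9 := congrArg (fun T : E →L[ℂ] E => T u) h7
  have e1 : De (Dr u) = D (LE φ m (t * I) u) := by
    have e2 : Dr u = LE φ m (t * I) u := h.wt t u
    rw [e2]
    exact h.der _
  have e2 : L (De u) = LE φ m (t * I) (D u) := by
    have e3 : De u = D u := h.der u
    rw [e3, h8]
    rfl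
  calc D (LE φ m (t * I) u) = De (Dr u) := e1.symm
    _ = L (De u) := h9
    _ = _ := e2

theorem Chart.isLinearization (h : Chart ρ p φ m e D) (hρ : IsHolIsomFlow E ρ) :
    IsLinearization ρ p h.F := by
  refine ⟨?_, fun v => ?_, fun t x => ?_⟩
  · rw [h.F_apply, h.base, map_zero]
  · rw [h.mfderiv_F, h.der, ContinuousLinearEquiv.symm_apply_apply]
  · rw [h.wt, h.F_apply, h.F_apply]
    have h1 := h.equiv t (e x)
    rw [e.left_inv (h.src ▸ mem_univ x)] at h1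
    have h2 : e (ρ t x) = LE φ m (t * I) (e x) := by
      rw [h1, e.right_inv (h.tgt ▸ mem_univ _)]
    rw [h2]
    apply D.injective
    rw [ContinuousLinearEquiv.apply_symm_apply, h.comm hρ, ContinuousLinearEquiv.apply_symm_apply]

theorem Chart.dsymm_eq (h : Chart ρ p φ m e D) (w : E) : dsymm e 0 w = D.symm w := by
  have her := mem_maximalAtlas_real h.mem
  have h1 := (mdifferentiable_chart her).comp_symm_deriv (x := 0) (h.tgt ▸ mem_univ _)
  have hs : e.symm 0 = p := by rw [← h.base, e.left_inv (h.src ▸ mem_univ p)]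
  have h2 : (mfderiv 𝓘(ℝ, E) 𝓘(ℝ, E) e (e.symm 0) : E → E) (dsymm e 0 w) = w :=
    congrArg (fun T : E →L[ℝ] E => T w) h1
  have h3 : (mfderiv 𝓘(ℝ, E) 𝓘(ℝ, E) e (e.symm 0) : E → E) (dsymm e 0 w) = D (dsymm e 0 w) := by
    have h4 : ∀ y : M, y = p → (mfderiv 𝓘(ℝ, E) 𝓘(ℝ, E) e y : E → E) (dsymm e 0 w) =
        D (dsymm e 0 w) := by
      rintro y rfl
      rw [mfderiv_real_eq (h.mdiff y), h.der]
    exact h4 _ hs
  rw [h3] at h2
  rw [← h2, ContinuousLinearEquiv.symm_apply_apply, h2]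

theorem Chart.chartG_zero (h : Chart ρ p φ m e D) (w : E) :
    chartG e 0 w w = sqLen p (D.symm w) := by
  have hs : e.symm 0 = p := by rw [← h.base, e.left_inv (h.src ▸ mem_univ p)]
  rw [chartG_eq_innerAt, h.dsymm_eq, hs]
  rfl

theorem Chart.chartG_eq (h : Chart ρ p φ m e D) (x : M) (v w : E)
    (hw : (mfderiv 𝓘(ℂ, E) 𝓘(ℂ, E) e x : E → E) v = w) : chartG e (e x) w w = sqLen x v := by
  have her := mem_maximalAtlas_real h.mem
  have hx : x ∈ e.source := h.src ▸ mem_univ x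
  have h1 := (mdifferentiable_chart her).symm_comp_deriv hx
  have h2 : dsymm e (e x) ((mfderiv 𝓘(ℝ, E) 𝓘(ℝ, E) e x : E → E) v) = v :=
    congrArg (fun T : E →L[ℝ] E => T v) h1
  have h3 : (mfderiv 𝓘(ℝ, E) 𝓘(ℝ, E) e x : E → E) v = w := by
    rw [mfderiv_real_eq (h.mdiff x), hw]
  rw [h3] at h2
  rw [chartG_eq_innerAt, h2, e.left_inv hx]
  rfl

end chart

end Vale.Agent.P253.U165
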